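import Vale.Agent.P235.ST.H690.Ops
import Vale.Agent.P235.ST.H742.Vortex

/-!
# All operations, iterated, with contractions onto a vertex set
-/

namespace Vale.Agent.P235

/-- `AllOpsC P Q w j G`: the operations of `AllOps` and one more. `contract`: for some nonempty
vertex set `X` all components of `G - X` are in the class `Q`, and all graphs which are obtained
from `G` by contracting it onto `X` (`RContr`: every vertex goes to a vertex of `X`, the vertices of
`X` stay, fibres connected) are allowed in round `j`. -/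
inductive AllOpsC (P Q : ∀ (V : Type), SimpleGraph V → Prop) (w : ℕ) :
    ℕ → ∀ {V : Type}, SimpleGraph V → Prop
  | base {V : Type} {G : SimpleGraph V} : P V G → AllOpsC P Q w 0 G
  | lift {j : ℕ} {V : Type} {G : SimpleGraph V} : AllOpsC P Q w j G → AllOpsC P Q w (j + 1) G
  | vertexSum {j : ℕ} {V : Type} {G : SimpleGraph V} {A B : Set V} {v : V} :
      A ∪ B = Set.univ → A ∩ B = {v} → (∀ a b, a ∉ B → b ∉ A → ¬ G.Adj a b) →
      AllOpsC P Q w j (G.induce A) → AllOpsC P Q w j (G.induce B) → AllOpsC P Q w j G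
  | compose {j : ℕ} {V : Type} {G : SimpleGraph V} {X : Set V} : X.Nonempty →
      AllOpsC P Q w j (torso G X) → (∀ u ∉ X, AllOpsC P Q w j (G.induce (compSet G X u))) →
      AllOpsC P Q w (j + 1) G
  | pathSum {j n : ℕ} {V : Type} {G : SimpleGraph V} {B : Fin n → Set V} : PathDec G w B →
      (∀ i, ∀ u ∈ B i, AllOpsC P Q w j (G.induce (compSet G (B i)ᶜ u))) → AllOpsC P Q w (j + 1) G
  | remove {j : ℕ} {V : Type} {G : SimpleGraph V} {X : (Sym2 V → ℝ) → Set V} :
      (∀ ℓ : Sym2 V → ℝ, (∀ e ∈ G.edgeSet, 0 < ℓ e) →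
        (X ℓ).Nonempty ∧ (Removable G ℓ w (X ℓ) ∨ Lanes G ℓ w (X ℓ))) →
      (∀ ℓ : Sym2 V → ℝ, (∀ e ∈ G.edgeSet, 0 < ℓ e) → ∀ u ∉ X ℓ,
        AllOpsC P Q w j (G.induce (compSet G (X ℓ) u))) → AllOpsC P Q w (j + 1) G
  | face {j : ℕ} {V : Type} {G : SimpleGraph V} {σ : Equiv.Perm G.Dart} {d : G.Dart} :
      SurfMap w G σ → (∀ u ∉ onFace σ d, AllOpsC P Q w j (G.induce (compSet G (onFace σ d) u))) →
      AllOpsC P Q w (j + 1) G
  | genus {j : ℕ} {V : Type} {G : SimpleGraph V} {σ : Equiv.Perm G.Dart} : SurfMap w G σ →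
      (∀ S : Set V, (G.induce S).Connected → (∃ τ, SurfMap 0 (G.induce S) τ) →
        AllOpsC P Q w j (G.induce S)) → AllOpsC P Q w (j + 1) G
  | contract {j : ℕ} {V : Type} {G : SimpleGraph V} {X : Set V} : X.Nonempty →
      (∀ u ∉ X, Q _ (G.induce (compSet G X u))) →
      (∀ π : V → V, ST.H742.RContr G X π → AllOpsC P Q w j (ST.H742.rgraph G X π)) →
      AllOpsC P Q w (j + 1) G

end Vale.Agent.P235

namespace Vale.Agent.P235.ST.H123

open Vale.Agent.P235 H536 H206 ST.H690

/-- **All operations, iterated.** -/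
theorem allOpsC_bounded {Q : ∀ (V : Type), SimpleGraph V → Prop} (hR : ST.H742.ConRetr Q)
    (hQ : ∃ K : ℝ, ∀ (V : Type) [Finite V] (G : SimpleGraph V), G.Connected → Q V G →
      DistortionLE G K) (C0 : ℝ) (w j : ℕ) :
    ∃ C : ℝ, ∀ P : ∀ (V : Type), SimpleGraph V → Prop,
      (∀ (V : Type) [Finite V] (G : SimpleGraph V), G.Connected → P V G → DistortionLE G C0) →
      ∀ (V : Type) [Finite V] (G : SimpleGraph V), G.Connected →
        AllOpsC P Q w j G → DistortionLE G C := by
  obtain ⟨CR, hCR1, hCR⟩ := hR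
  obtain ⟨KQ, hKQ⟩ := hQ
  have hcomplete := complete_unbounded
  choose N hN using hcomplete
  let f0 : ℝ → ℝ := fun C => max (max (compK (N C) C) (psK w C))
    (max (5000000 * (C + (1 : ℕ) * (w + Real.log (w + 2)))) (10000000 * (C + Real.log (w + 2))))
  let f : ℝ → ℝ := fun C => max (f0 C) (3400000 * max KQ 1 * (C * CR))
  let c : ℕ → ℝ := fun j => Nat.rec (max 1 C0) (fun _ C => f C) j
  have hcs : ∀ j, c (j + 1) = f (c j) := fun j => rfl
  have f0f : ∀ C, f0 C ≤ f C := fun C => le_max_left _ _
  have f1 : ∀ C, compK (N C) C ≤ f C := fun C =>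
    ((le_max_left _ _).trans (le_max_left _ _)).trans (f0f C)
  have f2 : ∀ C, psK w C ≤ f C := fun C =>
    ((le_max_right _ _).trans (le_max_left _ _)).trans (f0f C)
  have f3 : ∀ C, 5000000 * (C + (1 : ℕ) * (w + Real.log (w + 2))) ≤ f C := fun C =>
    ((le_max_left _ _).trans (le_max_right _ _)).trans (f0f C)
  have f4 : ∀ C, 10000000 * (C + Real.log (w + 2)) ≤ f C := fun C =>
    ((le_max_right _ _).trans (le_max_right _ _)).trans (f0f C)
  have f5 : ∀ C, 3400000 * max KQ 1 * (C * CR) ≤ f C := fun C => le_max_right _ _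
  have hc1 : ∀ j, 1 ≤ c j := by
    intro j
    induction j with
    | zero => exact le_max_left _ _
    | succ j ih =>
      rw [hcs]
      exact ih.trans ((le_compK _ ih).trans (f1 _))
  refine ⟨c j, fun P hP V _ G hconn hG => ?_⟩
  revert hconn
  have key : ∀ {j : ℕ} {V : Type} {G : SimpleGraph V}, AllOpsC P Q w j G → Finite V →
      G.Connected → DistortionLE G (c j) := by
    intro j V G hG
    induction hG with
    | base hG =>
      intro _ hconn
      exact (hP _ _ hconn hG).mono (le_max_right _ _)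
    | @lift j V G hG ih =>
      intro hfin hconn
      exact (ih hfin hconn).mono ((le_compK (N (c j)) (hc1 j)).trans (f1 _))
    | @vertexSum j V G A B v hU hI hn hA hB ihA ihB =>
      intro hfin hconn
      have hcA := side_connected hconn hU hI hn
      have hcB : (G.induce B).Connected := side_connected hconn
        (by rw [Set.union_comm]; exact hU) (by rw [Set.inter_comm]; exact hI)
        (fun a b ha hb h => hn b a hb ha h.symm)
      exact distortion_vertexSum (one_pos.trans_le (hc1 j)) hconn hU hI hn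
        (ihA inferInstance hcA) (ihB inferInstance hcB)
    | @compose j V G X hX ht hk iht ihk =>
      intro hfin hconn
      have ht' := iht inferInstance (torso_connected hconn hX)
      exact (distortion_compose2 (hc1 j) hconn hX (fun u _ => attach_lt (hN (c j)) hconn hX ht' u)
        ht' fun u hu => ihk u hu inferInstance (comp_connected hu)).mono (f1 _)
    | @pathSum j n V G B hB hk ihk =>
      intro hfin hconn
      exact (distortion_pathSum (hc1 j) w V G hconn n B ⟨hB.cover, hB.edge, hB.conv⟩ hB.adh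
        fun i u hu => ihk i u hu inferInstance (comp_connected (by simpa using hu))).mono (f2 _)
    | @remove j V G X hX hk ihk =>
      intro hfin hconn
      exact (remove_step (hc1 j) w hconn hX fun ℓ hℓ u hu =>
        ihk ℓ hℓ u hu inferInstance (comp_connected hu)).mono (f3 _)
    | @face j V G σ d hσ hk ihk =>
      intro hfin hconn
      exact (surfStrip_distortion (fun _ G => DistortionLE G (c j)) (hc1 j) (fun _ _ _ _ h => h) w
        w 1 V G hconn fun ℓ hℓ =>
        SurfStrip.face hσ fun u hu =>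
          SurfStrip.leaf (ihk u hu inferInstance (comp_connected hu))).mono (f3 _)
    | @genus j V G σ hσ hk ihk =>
      intro hfin hconn
      exact (genus_distortion w (hc1 j) V G hconn ⟨σ, hσ⟩ fun S hS hp =>
        ihk S hS hp inferInstance hS).mono (f4 _)
    | @contract j V G X hX hq hk ihk =>
      intro hfin hconn
      refine (ST.H742.thmT hconn hX (hc1 j) (le_max_right KQ 1) hCR1
        (fun ℓ hℓ => hCR V G ℓ hconn hℓ _ hX hq)
        (fun π hπ => ihk π hπ inferInstance (ST.H742.rgraph_connected hπ hconn hX))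
        fun u hu => (hKQ _ _ (comp_connected hu) (hq u hu)).mono (le_max_left _ _)).mono (f5 _)
  exact key hG inferInstance

/-- every graph of `AllOps` is in `AllOpsC` -/
theorem allOpsC_of {P Q : ∀ (V : Type), SimpleGraph V → Prop} {w : ℕ} {j : ℕ} {V : Type}
    {G : SimpleGraph V} (h : AllOps P w j G) : AllOpsC P Q w j G := by
  induction h with
  | base h => exact .base h
  | lift _ ih => exact .lift ih
  | vertexSum h1 h2 h3 _ _ ihA ihB => exact .vertexSum h1 h2 h3 ihA ihB
  | compose h1 _ _ iht ihk => exact .compose h1 iht ihk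
  | pathSum h1 _ ihk => exact .pathSum h1 ihk
  | remove h1 _ ihk => exact .remove h1 ihk
  | face h1 _ ihk => exact .face h1 ihk
  | genus h1 _ ihk => exact .genus h1 ihk

/-- a graph with a vortex of depth `w` is allowed in round `1` over the graphs of treewidth at most
`3 w + 2` -/
theorem vortex_allOpsC (hTw : ST.H742.TwNon) {P Q : ∀ (V : Type), SimpleGraph V → Prop} {w t : ℕ}
    (hP : ∀ (V : Type) (G : SimpleGraph V), TreewidthLE G (3 * w + 2) → P V G)
    {V : Type} [Finite V] {G : SimpleGraph V} {W : Set V} {n : ℕ} {x : Fin n → V}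
    {B : Fin n → Finset V} (hn : 0 < n) (hv : ST.H742.Vortex G W x B w)
    (hcomp : ∀ u ∉ W ∪ Set.range x, Q _ (G.induce (compSet G (W ∪ Set.range x) u))) :
    AllOpsC P Q t 1 G :=
  .contract ⟨x ⟨0, hn⟩, Or.inr ⟨_, rfl⟩⟩ hcomp fun _ hπ => .base (hP _ _ (hv.treewidth hTw hn hπ))

end Vale.Agent.P235.ST.H123
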