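/-
P235, (ST) O(1), section 2 of #22649 (helper123): the static plan.
-/
import Mathlib

set_option linter.all false
set_option autoImplicit false

namespace Vale.Agent.P235.ST.H123

/-- pseudometrics -/
structure Met {V : Type} (d : V → V → ℝ) : Prop where
  self : ∀ x, d x x = 0
  nonneg : ∀ x y, 0 ≤ d x y
  symm : ∀ x y, d x y = d y x
  tri : ∀ x y z, d x z ≤ d x y + d y z

section defs

variable {V : Type} (d : V → V → ℝ) (kap r0 : ℝ) (Pr : V → V → Prop)
  (Srv : (V → ℝ) → V → V → Prop)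

/-- the unserved pairs -/
def Bad (rho : V → ℝ) (z y : V) : Prop :=
  Pr z y ∧ ¬ Srv rho z y ∧ r0 ≤ d z y ∧ d z y ≤ kap * rho z / 2

open Classical in
/-- the contribution of one pair -/
noncomputable def ctr (rho : V → ℝ) (x : V) (p : V × V) : ℝ :=
  if Bad d kap r0 Pr Srv rho p.1 p.2 then max 0 (d p.1 p.2 - d x p.1 / kap) else 0

/-- the next scale function -/
noncomputable def nxt (rho : V → ℝ) (x : V) : ℝ := ⨆ p : V × V, ctr d kap r0 Pr Srv rho x p

/-- the scale functions -/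
noncomputable def scl (R : ℝ) : ℕ → V → ℝ
  | 0 => fun _ => R
  | i + 1 => nxt d kap r0 Pr Srv (scl R i)

end defs

section facts

variable {V : Type} [Finite V] {d : V → V → ℝ} {kap r0 : ℝ} {Pr : V → V → Prop}
  {Srv : (V → ℝ) → V → V → Prop}

theorem ctr_nonneg (rho : V → ℝ) (x : V) (p : V × V) : 0 ≤ ctr d kap r0 Pr Srv rho x p := by
  unfold ctr
  split
  · exact le_max_left _ _
  · exact le_rfl

theorem ctr_le_nxt (rho : V → ℝ) (x : V) (p : V × V) :
    ctr d kap r0 Pr Srv rho x p ≤ nxt d kap r0 Pr Srv rho x :=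
  le_ciSup (Set.finite_range _).bddAbove p

theorem nxt_nonneg (rho : V → ℝ) (x : V) : 0 ≤ nxt d kap r0 Pr Srv rho x :=
  (ctr_nonneg rho x (x, x)).trans (ctr_le_nxt rho x (x, x))

theorem nxt_lip (hd : Met d) (hk : 0 < kap) (rho : V → ℝ) (x y : V) :
    nxt d kap r0 Pr Srv rho x ≤ nxt d kap r0 Pr Srv rho y + d x y / kap := by
  have : Nonempty (V × V) := ⟨(x, x)⟩
  refine ciSup_le fun p => ?_
  refine le_trans ?_ (add_le_add_left (ctr_le_nxt rho y p) _)
  unfold ctr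
  have h0 : 0 ≤ d x y / kap := div_nonneg (hd.nonneg x y) hk.le
  split
  · have h1 : d y p.1 / kap ≤ d x p.1 / kap + d x y / kap := by
      rw [← add_div]
      refine div_le_div_of_nonneg_right ?_ hk.le
      have := hd.tri y x p.1
      rw [hd.symm y x] at this
      linarith
    refine max_le ?_ ?_
    · have := le_max_left (0 : ℝ) (d p.1 p.2 - d y p.1 / kap)
      linarith
    · have := le_max_right (0 : ℝ) (d p.1 p.2 - d y p.1 / kap)
      linarith
  · linarith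

theorem nxt_wit (rho : V → ℝ) (x : V) (h : 0 < nxt d kap r0 Pr Srv rho x) :
    ∃ z y, Bad d kap r0 Pr Srv rho z y ∧ nxt d kap r0 Pr Srv rho x = d z y - d x z / kap := by
  have : Nonempty (V × V) := ⟨(x, x)⟩
  obtain ⟨p, hp⟩ := exists_eq_ciSup_of_finite (f := fun p => ctr d kap r0 Pr Srv rho x p)
  have h1 : ctr d kap r0 Pr Srv rho x p = nxt d kap r0 Pr Srv rho x := hp
  have h2 := h1
  unfold ctr at h2
  by_cases hb : Bad d kap r0 Pr Srv rho p.1 p.2
  · rw [if_pos hb] at h2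
    refine ⟨p.1, p.2, hb, ?_⟩
    rcases max_choice (0 : ℝ) (d p.1 p.2 - d x p.1 / kap) with h3 | h3
    · rw [h3] at h2
      rw [← h2] at h
      exact absurd h (lt_irrefl _)
    · rw [← h3, h2]
  · rw [if_neg hb] at h2
    rw [← h2] at h
    exact absurd h (lt_irrefl _)

theorem bad_le_nxt (hd : Met d) (rho : V → ℝ) {z y : V} (hb : Bad d kap r0 Pr Srv rho z y) :
    d z y ≤ nxt d kap r0 Pr Srv rho z := by
  have h1 := ctr_le_nxt (d := d) (kap := kap) (r0 := r0) (Pr := Pr) (Srv := Srv) rho z (z, y)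
  unfold ctr at h1
  rw [if_pos hb] at h1
  have h2 := le_max_right (0 : ℝ) (d z y - d z z / kap)
  rw [hd.self, zero_div, sub_zero] at h2
  refine h2.trans (le_trans ?_ h1)
  simp [hd.self]

/-- **The static plan.** -/
theorem plan [Nonempty V] (hd : Met d) (hk : 0 < kap) {d1 : ℝ} (hd1 : 0 < d1)
    (h16 : 16 * d1 ≤ 1 / 2) (hr0 : 0 < r0) (R : ℝ) (hR : ∀ x y, d x y ≤ R)
    (thin : ∀ rho : V → ℝ, (∀ x, 0 ≤ rho x) → (∀ x y, rho x ≤ rho y + d x y / kap) →
      ∀ z y, Pr z y → ¬ Srv rho z y → r0 ≤ d z y → d z y ≤ kap * rho z / 2 →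
        d z y ≤ 16 * d1 * rho z) (hk1 : kap ≤ 1) :
    ∃ (n : ℕ) (rho : ℕ → V → ℝ), (∀ x, rho 0 x = R) ∧ (∀ i x, 0 ≤ rho i x) ∧
      (∀ i x y, rho i x ≤ rho i y + d x y / kap) ∧
      (∀ i x, rho (i + 1) x ≤ 16 * d1 * rho i x) ∧ (∀ i, n ≤ i → ∀ x, rho i x = 0) ∧
      (∀ i x, 0 < rho (i + 1) x → ∃ z y, Pr z y ∧ ¬ Srv (rho i) z y ∧ r0 ≤ d z y ∧
        d z y ≤ kap * rho i z / 2 ∧ d z y ≤ 16 * d1 * rho i z ∧
        rho (i + 1) x = d z y - d x z / kap) ∧
      ∀ x y, Pr x y → r0 ≤ d x y → ∃ i < n, rho (i + 1) x < d x y ∧ d x y ≤ rho i x ∧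
        (kap * rho i x / 2 < d x y ∨ Srv (rho i) x y) := by
  obtain ⟨x0⟩ := ‹Nonempty V›
  have hR0 : 0 ≤ R := (hd.nonneg x0 x0).trans (hR x0 x0)
  set rho := scl d kap r0 Pr Srv R with hrho
  have r0' : ∀ x, rho 0 x = R := fun _ => rfl
  have rs : ∀ i, rho (i + 1) = nxt d kap r0 Pr Srv (rho i) := fun _ => rfl
  have nn : ∀ i x, 0 ≤ rho i x := by
    intro i x
    cases i with
    | zero => exact hR0
    | succ i => rw [rs]; exact nxt_nonneg _ _
  have lip : ∀ i x y, rho i x ≤ rho i y + d x y / kap := by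
    intro i x y
    cases i with
    | zero =>
      have : 0 ≤ d x y / kap := div_nonneg (hd.nonneg x y) hk.le
      rw [r0', r0']
      linarith
    | succ i => rw [rs]; exact nxt_lip hd hk _ _ _
  have wit : ∀ i x, 0 < rho (i + 1) x → ∃ z y, Pr z y ∧ ¬ Srv (rho i) z y ∧ r0 ≤ d z y ∧
        d z y ≤ kap * rho i z / 2 ∧ d z y ≤ 16 * d1 * rho i z ∧
        rho (i + 1) x = d z y - d x z / kap := by
    intro i x hx
    rw [rs] at hx ⊢
    obtain ⟨z, y, ⟨h1, h2, h3, h4⟩, h5⟩ := nxt_wit _ _ hx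
    exact ⟨z, y, h1, h2, h3, h4, thin _ (nn i) (lip i) z y h1 h2 h3 h4, h5⟩
  have dec : ∀ i x, rho (i + 1) x ≤ 16 * d1 * rho i x := by
    intro i x
    by_cases hx : 0 < rho (i + 1) x
    · obtain ⟨z, y, -, -, -, -, h5, h6⟩ := wit i x hx
      have h7 := lip i z x
      rw [hd.symm z x] at h7
      have h8 : 0 ≤ d x z / kap := div_nonneg (hd.nonneg x z) hk.le
      have h9 : 16 * d1 * rho i z ≤ 16 * d1 * (rho i x + d x z / kap) :=
        mul_le_mul_of_nonneg_left h7 (by positivity)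
      have h10 : 16 * d1 * (d x z / kap) ≤ 1 / 2 * (d x z / kap) :=
        mul_le_mul_of_nonneg_right h16 h8
      nlinarith
    · have := nn i x
      have : 0 ≤ 16 * d1 * rho i x := by positivity
      linarith [not_lt.1 hx]
  -- geometric decrease
  have geo : ∀ i x, rho i x ≤ (1 / 2) ^ i * R := by
    intro i
    induction i with
    | zero => intro x; rw [r0']; simp
    | succ i ih =>
      intro x
      have h1 := dec i x
      have h2 := ih x
      have h3 : 16 * d1 * rho i x ≤ 1 / 2 * rho i x := mul_le_mul_of_nonneg_right h16 (nn i x)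
      have h4 : (1 / 2 : ℝ) ^ (i + 1) * R = 1 / 2 * ((1 / 2) ^ i * R) := by ring
      rw [h4]
      linarith
  obtain ⟨n, hn⟩ : ∃ n : ℕ, (1 / 2 : ℝ) ^ n * R < r0 := by
    obtain ⟨n, hn⟩ := exists_pow_lt_of_lt_one (x := r0 / (R + 1)) (by positivity)
      (show (1 / 2 : ℝ) < 1 by norm_num)
    refine ⟨n, ?_⟩
    rw [lt_div_iff₀ (by linarith)] at hn
    have : (0 : ℝ) < (1 / 2) ^ n := by positivity
    nlinarith
  have zer : ∀ i, n + 1 ≤ i → ∀ x, rho i x = 0 := by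
    intro i hi x
    obtain ⟨j, rfl⟩ : ∃ j, i = j + 1 := ⟨i - 1, by omega⟩
    by_contra hne
    have hx : 0 < rho (j + 1) x := lt_of_le_of_ne (nn _ _) (Ne.symm hne)
    obtain ⟨z, y, -, -, h3, -, h5, -⟩ := wit j x hx
    have h6 := geo j z
    have h7 : (1 / 2 : ℝ) ^ j ≤ (1 / 2) ^ n :=
      pow_le_pow_of_le_one (by norm_num) (by norm_num) (by omega)
    have h8 : (1 / 2 : ℝ) ^ j * R ≤ (1 / 2) ^ n * R := mul_le_mul_of_nonneg_right h7 hR0
    have h9 : 16 * d1 * rho j z ≤ 1 / 2 * rho j z := mul_le_mul_of_nonneg_right h16 (nn j z)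
    have := nn j z
    linarith
  refine ⟨n + 1, rho, r0', nn, lip, dec, zer, wit, ?_⟩
  intro x y hxy hs
  classical
  have hex : ∃ i, rho i x < d x y := ⟨n + 1, by rw [zer _ le_rfl]; linarith⟩
  have h1 := Nat.find_spec hex
  have h2 : Nat.find hex ≤ n + 1 := Nat.find_min' hex (by rw [zer _ le_rfl]; linarith)
  obtain ⟨j, hj⟩ : ∃ j, Nat.find hex = j + 1 := by
    refine ⟨Nat.find hex - 1, ?_⟩
    rcases Nat.eq_zero_or_pos (Nat.find hex) with h0 | h0
    · rw [h0, r0'] at h1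
      exact absurd h1 (not_lt.2 (hR x y))
    · omega
  have h3 : ¬ rho j x < d x y := Nat.find_min hex (by omega)
  rw [hj] at h1
  refine ⟨j, by omega, h1, not_lt.1 h3, ?_⟩
  by_contra hcon
  push Not at hcon
  have hb : Bad d kap r0 Pr Srv (rho j) x y := ⟨hxy, hcon.2, hs, hcon.1⟩
  have h4 := bad_le_nxt hd (rho j) hb
  rw [← rs] at h4
  linarith

end facts

end Vale.Agent.P235.ST.H123
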