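import Vale.Agent.P235.ST.H123.Rows345

/-! P235, (ST) O(1): row r4, first half: `uns_le` from (T), the middle offset and
`bi_of_reach` (helper123). -/

set_option autoImplicit false

namespace Vale.Agent.P235.STO.H123

open SimpleGraph

variable {V : Type} (W : LWorld V)

theorem th_cast (k : ℕ) : (th k : ℝ) = 16 * 2 ^ k := by
  unfold th
  push_cast
  rfl

theorem uns_le_of
    (bi_of_reach : ∀ (k m : ℕ) {x y : V}, (W.Bg k m).Reachable x y →
      W.bi k m x = W.bi k m y ∧ W.G.dist x y ≤ (W.Bg k m).dist x y)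
    (D_T : ∀ (k m : ℕ) {p q : V}, p ∈ W.N → q ∈ W.N → (W.Bg k m).Reachable p q →
      W.idx p ≤ W.idx q → (W.D k m p : ℤ) + (W.Bg k m).dist p q ≤ W.D k m q + 2 * th k)
    (exists_mid : ∀ (k : ℕ) (z : V), ∃ m < 16, W.mid k m z)
    {ρ : V → ℝ} (h : W.Scale ρ) {z y : V} (hu : W.uns ρ z y) :
    W.d z y ≤ 16 * d1 * ρ z := by
  obtain ⟨hz, hy, -, hi, hr, hk2, hns⟩ := hu
  by_contra hcon
  push Not at hcon
  have hρ := h.nonneg z
  have hr' : (2 : ℝ) ^ 90 ≤ W.d z y := hr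
  -- the least thickness
  have hex : ∃ k : ℕ, d1 * ρ z ≤ (th k : ℝ) := by
    obtain ⟨k, hk⟩ := pow_unbounded_of_one_lt (d1 * ρ z) (show (1 : ℝ) < 2 by norm_num)
    refine ⟨k, ?_⟩
    rw [th_cast]
    have : (0 : ℝ) < 2 ^ k := by positivity
    linarith
  classical
  set k := Nat.find hex with hkdef
  have h1 : d1 * ρ z ≤ (th k : ℝ) := Nat.find_spec hex
  have h2 : (th k : ℝ) ≤ 16 + 2 * (d1 * ρ z) := by
    rcases Nat.eq_zero_or_pos k with h0 | h0
    · rw [h0, th_cast]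
      have : 0 ≤ d1 * ρ z := mul_nonneg d1_pos.le hρ
      norm_num
      linarith
    · have h3 : ¬ d1 * ρ z ≤ (th (k - 1) : ℝ) := Nat.find_min hex (by omega)
      rw [th_cast] at h3 ⊢
      obtain ⟨j, hj⟩ : ∃ j, k = j + 1 := ⟨k - 1, by omega⟩
      rw [hj] at h3 ⊢
      rw [Nat.add_sub_cancel] at h3
      rw [pow_succ]
      linarith
  have hd1ρ : 0 ≤ d1 * ρ z := mul_nonneg d1_pos.le hρ
  have h16 : 16 * d1 * ρ z = 16 * (d1 * ρ z) := by ring
  rw [h16] at hcon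
  have hin : inList (ρ z) k := by
    refine ⟨h1, ?_⟩
    have e1 : kap = 8 * dl := by unfold kap dl; norm_num
    rw [e1] at hk2
    have e2 : (2 : ℝ) ^ 90 = 2 ^ 90 := rfl
    have : (16 : ℝ) * 16 ≤ 2 ^ 90 := by norm_num
    linarith
  obtain ⟨m, hm, hmid⟩ := exists_mid k z
  refine hns k m hm hin ⟨hmid, ?_⟩
  by_cases hre : (W.Bg k m).Reachable z y
  · right
    have a1 := D_T k m hz hy hre hi
    have a2 := (bi_of_reach k m hre).2
    have a3 : ((W.D k m z : ℤ) : ℝ) + (((W.Bg k m).dist z y : ℤ) : ℝ) ≤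
        ((W.D k m y : ℤ) : ℝ) + 2 * ((th k : ℤ) : ℝ) := by exact_mod_cast a1
    push_cast at a3
    have a4 : W.d z y ≤ ((W.Bg k m).dist z y : ℝ) := by
      unfold LWorld.d
      exact_mod_cast a2
    have a5 : cp * W.d z y ≤ 1 / 2 * W.d z y := by
      refine mul_le_mul_of_nonneg_right ?_ (d_nonneg W z y)
      unfold cp
      norm_num
    have : (16 : ℝ) * 16 ≤ 2 ^ 90 := by norm_num
    linarith
  · exact Or.inl hre

theorem exists_mid (k : ℕ) (z : V) : ∃ m < 16, W.mid k m z := by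
  unfold LWorld.mid LWorld.pos th
  set a := W.u z with ha
  have hp : (0 : ℤ) < 2 ^ k := by positivity
  set P : ℤ := 2 ^ k with hP
  -- `r = a mod 16 P`, choose `m` with `8 P ≤ (r + m P) mod 16 P < 9 P`
  have hr0 : 0 ≤ a % (16 * P) := Int.emod_nonneg _ (by positivity)
  have hr1 : a % (16 * P) < 16 * P := Int.emod_lt_of_pos _ (by positivity)
  set r := a % (16 * P) with hr
  have hq0 : 0 ≤ r / P := Int.ediv_nonneg hr0 hp.le
  have hq1 : r / P < 16 := Int.ediv_lt_of_lt_mul hp hr1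
  have hq2 : P * (r / P) + r % P = r := Int.mul_ediv_add_emod r P
  have hq3 : 0 ≤ r % P := Int.emod_nonneg _ hp.ne'
  have hq4 : r % P < P := Int.emod_lt_of_pos _ hp
  obtain ⟨q, hq⟩ : ∃ q : ℕ, r / P = q := ⟨(r / P).toNat, (Int.toNat_of_nonneg hq0).symm⟩
  rw [hq] at hq1 hq2
  have key : ∀ m : ℕ, (a + (m : ℤ) * P) % (16 * P) = (r + m * P) % (16 * P) := by
    intro m
    rw [hr, Int.emod_add_emod]
  by_cases hlt : q ≤ 8
  · refine ⟨8 - q, by omega, ?_⟩
    rw [key]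
    have e : ((8 - q : ℕ) : ℤ) = 8 - q := by omega
    have e2 : (r + ((8 - q : ℕ) : ℤ) * P) % (16 * P) = r + ((8 - q : ℕ) : ℤ) * P := by
      apply Int.emod_eq_of_lt
      · positivity
      · rw [e]; nlinarith
    rw [e2, e]
    constructor <;> nlinarith
  · refine ⟨24 - q, by omega, ?_⟩
    rw [key]
    have e : ((24 - q : ℕ) : ℤ) = 24 - q := by omega
    have e2 : (r + ((24 - q : ℕ) : ℤ) * P) % (16 * P) = r + ((24 - q : ℕ) : ℤ) * P - 16 * P := by
      rw [show r + ((24 - q : ℕ) : ℤ) * P = (r + ((24 - q : ℕ) : ℤ) * P - 16 * P) + 16 * P by ring,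
        Int.add_emod_right]
      rw [show r + ((24 - q : ℕ) : ℤ) * P - 16 * P + 16 * P - 16 * P =
        r + ((24 - q : ℕ) : ℤ) * P - 16 * P by ring]
      apply Int.emod_eq_of_lt
      · rw [e]; nlinarith
      · rw [e]; nlinarith
    rw [e2, e]
    constructor <;> nlinarith

end Vale.Agent.P235.STO.H123
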