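import Vale.Agent.P235.ST.H317.Defs2
import Vale.Agent.P235.ST.H119.Clock
import Vale.Agent.P235.ST.H123.Row4

/-! P235, (ST) O(1): rows r3, r4, r5 with the official statements (helper123). -/

set_option autoImplicit false

namespace Vale.Agent.P235.STO.H123

open SimpleGraph

variable {V : Type} (W : LWorld V) [Fintype V]

theorem uns_le {ρ : V → ℝ} (h : W.Scale ρ) {z y : V} (hu : W.uns ρ z y) :
    W.d z y ≤ 16 * d1 * ρ z :=
  uns_le_of W (fun k m _ _ => H119.bi_of_reach W k m)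
    (fun k m _ _ hp hq hr hi => H119.D_T W k m hp hq hr hi) (exists_mid W) h hu

theorem nxt_le {ρ : V → ℝ} (h : W.Scale ρ) (x : V) : W.nxt ρ x ≤ 16 * d1 * ρ x :=
  nxt_le_of W (fun h _ _ hu => uns_le W h hu) h x

theorem rho_eventually : ∃ n, ∀ x, W.rho n x = 0 :=
  rho_eventually_of W (fun h _ _ hu => uns_le W h hu)

theorem exists_level {z y : V} (hz : z ∈ W.N) (hy : y ∈ W.N) (hu : W.u z = W.u y)
    (hi : W.idx z ≤ W.idx y) (hd : r0 ≤ W.d z y) : ∃ i, W.tgt (W.rho i) z y :=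
  exists_level_of W (rho_eventually W) hz hy hu hi hd

end Vale.Agent.P235.STO.H123
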