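import Vale.Agent.P235.ST.H317.Defs

/-! P235, (ST) O(1): rows r3, r4 (second half), r5 (helper123). -/

set_option autoImplicit false

namespace Vale.Agent.P235.STO.H123

open SimpleGraph

variable {V : Type} (W : LWorld V)

theorem kap_pos : 0 < kap := by unfold kap; positivity

theorem d1_pos : 0 < d1 := by unfold d1; positivity

theorem d_self (x : V) : W.d x x = 0 := by simp [LWorld.d]

theorem d_nonneg (x y : V) : 0 ≤ W.d x y := Nat.cast_nonneg _

theorem d_symm (x y : V) : W.d x y = W.d y x := by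
  unfold LWorld.d
  rw [SimpleGraph.dist_comm]

theorem d_tri (x y z : V) : W.d x z ≤ W.d x y + W.d y z := by
  unfold LWorld.d
  exact_mod_cast W.conn.dist_triangle

variable [Fintype V]

theorem d_le_card (x y : V) : W.d x y ≤ Fintype.card V := by
  unfold LWorld.d
  have h := W.conn.preconnected x y
  obtain ⟨p, hp, hl⟩ := h.exists_path_of_dist
  rw [← hl]
  exact_mod_cast hp.length_lt.le

open Classical in
/-- the contribution of one pair -/
noncomputable def ctr (ρ : V → ℝ) (x : V) (zy : V × V) : ℝ :=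
  if W.uns ρ zy.1 zy.2 then max 0 (W.d zy.1 zy.2 - W.d x zy.1 / kap) else 0

theorem nxt_def (ρ : V → ℝ) (x : V) : W.nxt ρ x = ⨆ zy : V × V, ctr W ρ x zy := rfl

theorem ctr_nonneg (ρ : V → ℝ) (x : V) (p : V × V) : 0 ≤ ctr W ρ x p := by
  unfold ctr
  split
  · exact le_max_left _ _
  · exact le_rfl

theorem ctr_le_nxt (ρ : V → ℝ) (x : V) (p : V × V) : ctr W ρ x p ≤ W.nxt ρ x :=
  le_ciSup (f := fun zy : V × V => ctr W ρ x zy) (Set.finite_range _).bddAbove p

theorem nxt_nonneg (ρ : V → ℝ) (x : V) : 0 ≤ W.nxt ρ x :=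
  (ctr_nonneg W ρ x (x, x)).trans (ctr_le_nxt W ρ x (x, x))

theorem nxt_lip (ρ : V → ℝ) (x y : V) : W.nxt ρ x ≤ W.nxt ρ y + W.d x y / kap := by
  have hk := kap_pos
  have : Nonempty (V × V) := ⟨(x, x)⟩
  rw [nxt_def]
  refine ciSup_le fun p => ?_
  refine le_trans ?_ (add_le_add_left (ctr_le_nxt W ρ y p) _)
  unfold ctr
  have h0 : 0 ≤ W.d x y / kap := div_nonneg (d_nonneg W x y) hk.le
  split
  · have h1 : W.d y p.1 / kap ≤ W.d x p.1 / kap + W.d x y / kap := by
      rw [← add_div]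
      refine div_le_div_of_nonneg_right ?_ hk.le
      have := d_tri W y x p.1
      rw [d_symm W y x] at this
      linarith
    refine max_le ?_ ?_
    · have := le_max_left (0 : ℝ) (W.d p.1 p.2 - W.d y p.1 / kap)
      linarith
    · have := le_max_right (0 : ℝ) (W.d p.1 p.2 - W.d y p.1 / kap)
      linarith
  · linarith

theorem nxt_scale (ρ : V → ℝ) : W.Scale (W.nxt ρ) := by
  refine ⟨nxt_nonneg W ρ, fun x y => ?_⟩
  have h1 := nxt_lip W ρ x y
  have h2 := nxt_lip W ρ y x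
  rw [d_symm W y x] at h2
  rw [abs_le]
  constructor <;> linarith

theorem rho_scale (i : ℕ) : W.Scale (W.rho i) := by
  cases i with
  | zero =>
    have hk := kap_pos
    refine ⟨fun x => ?_, fun x y => ?_⟩
    · show (0 : ℝ) ≤ (4 * Fintype.card V) / kap
      positivity
    · show |(4 * Fintype.card V : ℝ) / kap - (4 * Fintype.card V) / kap| ≤ _
      rw [sub_self, abs_zero]
      exact div_nonneg (d_nonneg W x y) hk.le
  | succ i => exact nxt_scale W _

theorem nxt_attain {ρ : V → ℝ} {x : V} (h : 0 < W.nxt ρ x) :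
    ∃ z y, W.uns ρ z y ∧ W.nxt ρ x = W.d z y - W.d x z / kap := by
  have : Nonempty (V × V) := ⟨(x, x)⟩
  obtain ⟨p, hp⟩ := exists_eq_ciSup_of_finite (f := fun p => ctr W ρ x p)
  have h1 : ctr W ρ x p = W.nxt ρ x := hp
  have h2 := h1
  unfold ctr at h2
  by_cases hb : W.uns ρ p.1 p.2
  · rw [if_pos hb] at h2
    refine ⟨p.1, p.2, hb, ?_⟩
    rcases max_choice (0 : ℝ) (W.d p.1 p.2 - W.d x p.1 / kap) with h3 | h3
    · rw [h3] at h2
      rw [← h2] at h
      exact absurd h (lt_irrefl _)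
    · rw [← h3, h2]
  · rw [if_neg hb] at h2
    rw [← h2] at h
    exact absurd h (lt_irrefl _)

theorem le_nxt {ρ : V → ℝ} {z y : V} (hu : W.uns ρ z y) (x : V) :
    W.d z y - W.d x z / kap ≤ W.nxt ρ x := by
  have h1 := ctr_le_nxt W ρ x (z, y)
  unfold ctr at h1
  rw [if_pos hu] at h1
  exact (le_max_right _ _).trans h1

/-- `nxt_le` from `uns_le` -/
theorem nxt_le_of (uns_le : ∀ {ρ : V → ℝ}, W.Scale ρ → ∀ {z y : V}, W.uns ρ z y →
      W.d z y ≤ 16 * d1 * ρ z) {ρ : V → ℝ} (h : W.Scale ρ) (x : V) :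
    W.nxt ρ x ≤ 16 * d1 * ρ x := by
  have hk := kap_pos
  have hd1 := d1_pos
  by_cases hx : 0 < W.nxt ρ x
  · obtain ⟨z, y, hu, he⟩ := nxt_attain W hx
    have h5 := uns_le h hu
    have h7 := (abs_le.1 (h.lip z x)).2
    rw [d_symm W z x] at h7
    have h8 : 0 ≤ W.d x z / kap := div_nonneg (d_nonneg W x z) hk.le
    have h9 : 16 * d1 * ρ z ≤ 16 * d1 * (ρ x + W.d x z / kap) :=
      mul_le_mul_of_nonneg_left (by linarith) (by positivity)
    have h16 : 16 * d1 ≤ 1 := by unfold d1; norm_num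
    have h10 : 16 * d1 * (W.d x z / kap) ≤ 1 * (W.d x z / kap) :=
      mul_le_mul_of_nonneg_right h16 h8
    nlinarith
  · have := h.nonneg x
    have : 0 ≤ 16 * d1 * ρ x := by positivity
    linarith [not_lt.1 hx]

/-- `rho_eventually` from `uns_le` -/
theorem rho_eventually_of (uns_le : ∀ {ρ : V → ℝ}, W.Scale ρ → ∀ {z y : V}, W.uns ρ z y →
      W.d z y ≤ 16 * d1 * ρ z) : ∃ n, ∀ x, W.rho n x = 0 := by
  have hk := kap_pos
  have hd1 := d1_pos
  have h16 : 16 * d1 ≤ 1 / 2 := by unfold d1; norm_num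
  have hr0 : 0 < r0 := by unfold r0; positivity
  set R : ℝ := (4 * Fintype.card V) / kap with hR
  have hR0 : 0 ≤ R := by positivity
  have geo : ∀ i x, W.rho i x ≤ (1 / 2) ^ i * R := by
    intro i
    induction i with
    | zero => intro x; show R ≤ _; simp
    | succ i ih =>
      intro x
      have h1 : W.rho (i + 1) x ≤ 16 * d1 * W.rho i x := nxt_le_of W uns_le (rho_scale W i) x
      have h2 := ih x
      have h3 : 16 * d1 * W.rho i x ≤ 1 / 2 * W.rho i x :=
        mul_le_mul_of_nonneg_right h16 ((rho_scale W i).nonneg x)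
      have h4 : (1 / 2 : ℝ) ^ (i + 1) * R = 1 / 2 * ((1 / 2) ^ i * R) := by ring
      rw [h4]
      linarith
  obtain ⟨n, hn⟩ : ∃ n : ℕ, (1 / 2 : ℝ) ^ n * R < r0 := by
    obtain ⟨n, hn⟩ := exists_pow_lt_of_lt_one (x := r0 / (R + 1)) (by positivity)
      (show (1 / 2 : ℝ) < 1 by norm_num)
    refine ⟨n, ?_⟩
    rw [lt_div_iff₀ (by linarith)] at hn
    have : (0 : ℝ) < (1 / 2) ^ n := by positivity
    nlinarith
  refine ⟨n + 1, fun x => ?_⟩
  by_contra hne
  have hx : 0 < W.rho (n + 1) x := lt_of_le_of_ne ((rho_scale W _).nonneg _) (Ne.symm hne)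
  obtain ⟨z, y, hu, -⟩ := nxt_attain W (ρ := W.rho n) hx
  have h5 := uns_le (rho_scale W n) hu
  have h3 : r0 ≤ W.d z y := hu.2.2.2.2.1
  have h6 := geo n z
  have h9 : 16 * d1 * W.rho n z ≤ 1 / 2 * W.rho n z :=
    mul_le_mul_of_nonneg_right h16 ((rho_scale W n).nonneg z)
  have := (rho_scale W n).nonneg z
  linarith

/-- target pair of scale function `ρ` -/
def tgt' (ρ : V → ℝ) (z y : V) : Prop :=
  z ∈ W.N ∧ y ∈ W.N ∧ W.u z = W.u y ∧ W.idx z ≤ W.idx y ∧ r0 ≤ W.d z y ∧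
    W.nxt ρ z < W.d z y ∧ W.d z y ≤ ρ z ∧
    (kap * ρ z < 2 * W.d z y ∨ ∃ k m, m < 16 ∧ inList (ρ z) k ∧ W.serves k m z y)

/-- `exists_level` from `rho_eventually` -/
theorem exists_level_of (rho_ev : ∃ n, ∀ x, W.rho n x = 0) {z y : V} (hz : z ∈ W.N)
    (hy : y ∈ W.N) (hu : W.u z = W.u y) (hi : W.idx z ≤ W.idx y) (hd : r0 ≤ W.d z y) :
    ∃ i, tgt' W (W.rho i) z y := by
  classical
  have hk := kap_pos
  have hr0 : 0 < r0 := by unfold r0; positivity
  obtain ⟨n, hn⟩ := rho_ev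
  have hex : ∃ i, W.rho i z < W.d z y := ⟨n, by rw [hn]; linarith⟩
  have h1 := Nat.find_spec hex
  have hbig : W.d z y ≤ W.rho 0 z := by
    show _ ≤ (4 * Fintype.card V : ℝ) / kap
    have h2 := d_le_card W z y
    have h3 : kap ≤ 1 := by unfold kap; norm_num
    rw [le_div_iff₀ hk]
    have h4 := d_nonneg W z y
    nlinarith
  obtain ⟨j, hj⟩ : ∃ j, Nat.find hex = j + 1 := by
    refine ⟨Nat.find hex - 1, ?_⟩
    rcases Nat.eq_zero_or_pos (Nat.find hex) with h0 | h0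
    · rw [h0] at h1
      exact absurd h1 (not_lt.2 hbig)
    · omega
  have h3 : ¬ W.rho j z < W.d z y := Nat.find_min hex (by omega)
  rw [hj] at h1
  refine ⟨j, hz, hy, hu, hi, hd, h1, not_lt.1 h3, ?_⟩
  by_contra hcon
  push Not at hcon
  have hb : W.uns (W.rho j) z y := ⟨hz, hy, hu, hi, hd, hcon.1, fun k m hm hl hs =>
    hcon.2 k m hm hl hs⟩
  have h4 := le_nxt W hb z
  rw [d_self, zero_div, sub_zero] at h4
  have h5 : W.rho (j + 1) z = W.nxt (W.rho j) z := rfl
  rw [h5] at h1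
  linarith

end Vale.Agent.P235.STO.H123
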